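import Vale.Agent.P269.CIDefs

/-!
# P269: the cohomology ring of a smooth complete intersection in an explicit basis
-/

namespace Vale.Agent.P269.CI

/-- `deg` is a multidegree of complete intersections of positive dimension in `ℙ^N` -/
structure Ok (N : ℕ) (deg : List ℕ) : Prop where
  pos : ∀ d ∈ deg, 1 ≤ d
  lt : deg.length < N

variable (N : ℕ) (deg : List ℕ)

/-- The primitive Hodge number `h^{r,D-r}`, `D = N - c`, by Hirzebruch's formula: the coefficient
of `y^r` in the `χ_y`-genus is `(-1)^r + (-1)^{D-r} h^{r,D-r}_prim` for `r ≤ D`. -/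
noncomputable def prim (r : ℕ) : ℕ :=
  ((-1) ^ (N - deg.length + r) * ((chiY N deg).coeff r -
    if r ≤ N - deg.length then (-1) ^ r else 0)).toNat

/-- The index set of a basis of `H^*(X;ℂ)`: `inl i` stands for `h^i`, `0 ≤ i ≤ D`, and
`inr ⟨r, j⟩` for the `j`-th primitive class of Hodge type `(r, D - r)`. -/
abbrev Basis : Type :=
  Fin (N - deg.length + 1) ⊕ (Σ r : Fin (N - deg.length + 1), Fin (prim N deg r))

variable {N deg}

/-- the Hodge type is `(pX, qX)` -/
def pX : Basis N deg → ℕ
  | Sum.inl i => i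
  | Sum.inr a => a.1

/-- the Hodge type is `(pX, qX)` -/
def qX : Basis N deg → ℕ
  | Sum.inl i => i
  | Sum.inr a => N - deg.length - a.1

/-- The intersection form: `∫ h^i h^{D-i} = ∏ d_j`, and the `j`-th class of type `(r, D - r)` is
dual to the `j`-th class of type `(D - r, r)`, up to a sign. -/
noncomputable def ηX : Matrix (Basis N deg) (Basis N deg) ℂ
  | Sum.inl i, Sum.inl j => if (i : ℕ) + j = N - deg.length then (deg.prod : ℕ) else 0
  | Sum.inr a, Sum.inr b => if (a.1 : ℕ) + b.1 = N - deg.length ∧ (a.2 : ℕ) = b.2 then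
      (if (a.1 : ℕ) ≤ b.1 then 1 else (-1) ^ (N - deg.length)) else 0
  | _, _ => 0

/-- the product with `c_1(TX) = (N + 1 - ∑ d_j) h` -/
noncomputable def RX : Matrix (Basis N deg) (Basis N deg) ℂ
  | Sum.inl i, Sum.inl j => if (j : ℕ) = i + 1 then (N : ℂ) + 1 - (deg.sum : ℕ) else 0
  | _, _ => 0

/-- `∫_X φ_{a_1} ∪ ⋯ ∪ φ_{a_n}`: a product of total Hodge degree `(D, D)` has the integral `∏ d_j`
if there are no primitive classes, the integral `(v, w)` if the primitive classes are `v, w`,
and otherwise `0`. -/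
noncomputable def intX (l : List (Basis N deg)) : ℂ :=
  if (l.map pX).sum = N - deg.length ∧ (l.map qX).sum = N - deg.length then
    match l.filterMap Sum.getRight? with
    | [] => (deg.prod : ℕ)
    | [a, b] => ηX (Sum.inr a) (Sum.inr b)
    | _ => 0
  else 0

end Vale.Agent.P269.CI
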