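import Vale.Agent.P269.Defs

/-!
# P269: the cohomology and the Gromov-Witten theory of a complete intersection
-/

namespace Vale.Agent.P269

section Hirzebruch

open PowerSeries

/-- `((1+zy)^d - (1-z)^d) / (1+y) = z ∑_{j<d} (1+zy)^j (1-z)^{d-1-j}`, a power series in `z` over
`ℤ[y]`. -/
noncomputable def hirzA (d : ℕ) : PowerSeries (Polynomial ℤ) :=
  X * ∑ j ∈ Finset.range d, (1 + C Polynomial.X * X) ^ j * (1 - X) ^ (d - 1 - j)

/-- `((1+zy)^d + y(1-z)^d) / (1+y)`, a power series in `z` over `ℤ[y]` with constant term `1`. -/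
noncomputable def hirzB (d : ℕ) : PowerSeries (Polynomial ℤ) := (1 - X) ^ d + hirzA d

/-- Hirzebruch's `χ_y`-genus of a smooth complete intersection of multidegree `deg` in `ℙ^N`: the
coefficient of `z^N` in `1/((1-z)(1+zy)) ∏_j ((1+zy)^{d_j} - (1-z)^{d_j})/((1+zy)^{d_j} +
y(1-z)^{d_j})`. -/
noncomputable def chiY (N : ℕ) (deg : List ℕ) : Polynomial ℤ :=
  coeff N (invOfUnit ((1 - X) * (1 + C Polynomial.X * X)) 1 *
    (deg.map fun d : ℕ => hirzA d * invOfUnit (hirzB d) 1).prod)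

/-- The number `∫_X h ∪ c_{D-1}(TX)` of a smooth complete intersection of multidegree `deg` in
`ℙ^N`: the coefficient of `h^{D-1}` in `(∏_j d_j) (1+h)^{N+1} / ∏_j (1+d_j h)`, `D = N - c`. -/
noncomputable def hcD (N : ℕ) (deg : List ℕ) : ℤ :=
  (deg.prod : ℕ) * coeff (N - deg.length - 1)
    ((1 + X) ^ (N + 1) * (deg.map fun d : ℕ => invOfUnit (1 + C (d : ℤ) * X) 1).prod)

end Hirzebruch

/-- `X` is the cohomology of a smooth complete intersection of multidegree `deg` in `ℙ^N`: its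
Hodge numbers are those given by the Lefschetz theorem and Hirzebruch's formula. -/
structure IsCompleteIntersection (N : ℕ) (deg : List ℕ) (X : Cohomology) : Prop where
  deg_pos : ∀ d ∈ deg, 1 ≤ d
  dim : X.D + deg.length = N
  lefschetz : ∀ a, X.p a ≠ X.q a → X.p a + X.q a = X.D
  ambient : ∀ r ≤ X.D, 2 * r ≠ X.D →
    (Finset.univ.filter fun a => X.p a = r ∧ X.q a = r).card = 1
  hirzebruch : ∀ r, ∑ a with X.p a = r, (-1 : ℤ) ^ X.q a = (chiY N deg).coeff r

end Vale.Agent.P269
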