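import Vale.Agent.P269.H728.CIFields
import Vale.Agent.P269.H133.W

/-!
# P269: explicit descendant invariants of complete intersections of general type

`X h` is the cohomology of a smooth complete intersection of multidegree `deg` in `ℙ^N`, of
dimension `D = N - c`. If `∑ d_j - N - 1 > D - 3 ≥ 0` then all invariants in curve classes `d ≠ 0`
vanish, since their expected dimension `(1 - g)(D - 3) - (∑ d_j - N - 1) d` is negative. In class
`0` the virtual class is the Euler class of the tensor product of `TX` and the dual Hodge bundle.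
-/

namespace Vale.Agent.P269.CI

open Vale.Agent.P269 Nat

variable {N : ℕ} {deg : List ℕ}

/-- The cohomology of a smooth complete intersection of multidegree `deg` in `ℙ^N`. -/
noncomputable abbrev X (h : Ok N deg) : Cohomology where
  D := N - deg.length
  I := Basis N deg
  p := pX
  q := qX
  one := Sum.inl 0
  η := ηX
  R := RX
  p_one := rfl
  q_one := rfl
  η_deg := η_degX h
  η_symm := η_symmX h
  η_nondeg := η_nondegX h
  R_deg := R_degX h
  R_self := R_selfX h

/-- `∫ ψ_1^{m_1} ⋯ ψ_n^{m_n}` over `\bar M_{0,n}` -/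
noncomputable def psi0 (m : List ℕ) : ℂ :=
  if 3 ≤ m.length ∧ m.sum + 3 = m.length then
    ((m.length - 3)! : ℂ) / (m.map fun k => (k ! : ℂ)).prod else 0

/-- `∫ ψ_1^{m_1} ⋯ ψ_n^{m_n}` over `\bar M_{1,n}`: the solution of the string equation with the value
`(n-1)!/24` at `m_1 = ⋯ = m_n = 1` -/
noncomputable def psi1 (m : Multiset ℕ) : ℂ :=
  H133.W (fun _ => 0) (fun n => if n = 0 then 0 else ((n - 1)! : ℂ) / 24) m

/-- `24 ∫ λ_1 ψ_1^{m_1} ⋯ ψ_n^{m_n}` over `\bar M_{1,n}`: the solution of the string equation with the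
value `1` at `n = 1`, `m_1 = 0` -/
noncomputable def lam1 (m : Multiset ℕ) : ℂ :=
  H133.W (fun s => if s = 0 then 1 else 0) (fun _ => 0) m

/-- `∫ ψ_1^{m_1} ⋯ ψ_n^{m_n}` over a fibre of `\bar M_{g,n} → \bar M_g`, `g ≥ 2`: the solution of the
string equation with the value `(2g-2)(2g-1)⋯(2g-3+n)` at `m_1 = ⋯ = m_n = 1` -/
noncomputable def psig (g : ℕ) (m : Multiset ℕ) : ℂ :=
  H133.W (fun _ => 0) (fun n => ∏ i ∈ Finset.range n, ((2 * g - 2 : ℂ) + i)) m

/-- The descendant invariants `⟨τ_{m_1}(φ_{a_1}) ⋯ τ_{m_n}(φ_{a_n})⟩_{g,d}`; `d` is the degree of the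
curve class and `Ng g` the constant `⟨⟩_{g,0}` in the case of threefolds. A product of basis classes
of total Hodge degree `(0,0)` is the unit and of total degree `(1,1)` is `h`. -/
noncomputable def corr (h : Ok N deg) (Ng : ℕ → ℂ) (g d : ℕ) (l : List (X h).Ins) : ℂ :=
  if d ≠ 0 then 0
  else if g = 0 then psi0 (l.map Prod.fst) * intX (l.map Prod.snd)
  else if g = 1 then
    if (l.map fun x => pX x.2).sum = 0 ∧ (l.map fun x => qX x.2).sum = 0 then
      (X h).χ * psi1 (l.map Prod.fst : List ℕ)
    else if (l.map fun x => pX x.2).sum = 1 ∧ (l.map fun x => qX x.2).sum = 1 then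
      - (1 / 24) * (hcD N deg : ℂ) * lam1 (l.map Prod.fst : List ℕ)
    else 0
  else if N - deg.length = 3 ∧ (l.map fun x => pX x.2).sum = 0 ∧
      (l.map fun x => qX x.2).sum = 0 then Ng g * psig g (l.map Prod.fst : List ℕ)
  else 0

end Vale.Agent.P269.CI
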