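import Mathlib

/-!
# P269: descendant Gromov-Witten systems and the Virasoro constraints, in coefficient form

A descendant insertion `τ_m(φ_a)` is a pair `(m, a)`, and the correlator
`⟨τ_{m_1}(φ_{a_1}) ⋯ τ_{m_n}(φ_{a_n})⟩_{g,d}` is a function of the list of its insertions.
The coefficient of `ħ^{g-1} Q^d t^l` in `Z⁻¹ L_k Z`, for a monomial `t^l` given by a list `l` of
insertions, is the finite sum `GWTheory.virasoro` (with `K = k + 1`).
-/

namespace Vale.Agent.P269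

/-- The cohomology of a smooth projective variety `X` in a homogeneous basis `φ_a`, `a : I`. -/
structure Cohomology where
  /-- the complex dimension of `X` -/
  D : ℕ
  /-- index set of the basis `φ_a` of `H^*(X;ℂ)` -/
  I : Type
  [fintypeI : Fintype I]
  [decI : DecidableEq I]
  /-- `φ_a` has Hodge type `(p a, q a)` -/
  p : I → ℕ
  /-- `φ_a` has Hodge type `(p a, q a)` -/
  q : I → ℕ
  /-- the index of the unit class: `φ_one = 1` -/
  one : I
  /-- the Poincaré pairing `η a b = ∫_X φ_a ∪ φ_b` -/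
  η : Matrix I I ℂ
  /-- cup product with the first Chern class: `c_1(TX) ∪ φ_a = ∑_b R a b φ_b` -/
  R : Matrix I I ℂ
  p_one : p one = 0
  q_one : q one = 0
  η_deg : ∀ a b, η a b ≠ 0 → p a + p b = D ∧ q a + q b = D
  η_symm : ∀ a b, η b a = (-1) ^ ((p a + q a) * (p b + q b)) * η a b
  η_nondeg : IsUnit η.det
  R_deg : ∀ a b, R a b ≠ 0 → p b = p a + 1 ∧ q b = q a + 1
  R_self : ∀ a b, ∑ c, R a c * η c b = ∑ c, η a c * R b c

attribute [instance] Cohomology.fintypeI Cohomology.decI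

namespace Cohomology

variable (X : Cohomology)

/-- An insertion: `(m, a)` stands for `τ_m(φ_a)`. -/
abbrev Ins : Type := ℕ × X.I

/-- The cohomological degree (used for its parity) of an insertion. -/
def par (x : X.Ins) : ℕ := X.p x.2 + X.q x.2

/-- The grading operator `μ` acts on `H^{p,q}(X)` by `p - D/2`. -/
noncomputable def μ (a : X.I) : ℂ := (X.p a : ℂ) - (X.D : ℂ) / 2

/-- The Euler characteristic `χ(X) = str(1)`. -/
noncomputable def χ : ℂ := ∑ a, (-1 : ℂ) ^ (X.p a + X.q a)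

/-- The supertrace `str(μ²)`. -/
noncomputable def strμ2 : ℂ := ∑ a, (-1 : ℂ) ^ (X.p a + X.q a) * X.μ a ^ 2

/-- `splitSum f l` is the sum of `± f l₁ l₂` over all ways of distributing the entries of `l` over
two sublists `l₁`, `l₂`, with the Koszul sign of the unshuffle `l ↦ l₁ ++ l₂`. -/
noncomputable def splitSum (f : List X.Ins → List X.Ins → ℂ) : List X.Ins → ℂ
  | [] => f [] []
  | x :: l =>
      splitSum (fun l₁ l₂ => f (x :: l₁) l₂) l +
      splitSum (fun l₁ l₂ => (-1) ^ (X.par x * (l₁.map X.par).sum) * f l₁ (x :: l₂)) l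

/-- `derive T F l = ∑_j F(l with its j-th entry x replaced by T x)`: the (even) derivation
extending an operator `T` on single insertions, given as `T x f = ∑_y T_{x,y} f y`. -/
noncomputable def derive (T : X.Ins → (X.Ins → ℂ) → ℂ) (F : List X.Ins → ℂ)
    (l : List X.Ins) : ℂ :=
  ∑ j : Fin l.length, T (l.get j) (fun y => F (l.set j y))

/-- `τ_m(φ_a) ↦ τ_{m-1}(φ_a)`, and `τ_0(φ_a) ↦ 0`. -/
noncomputable def low (x : X.Ins) (f : X.Ins → ℂ) : ℂ :=
  if x.1 = 0 then 0 else f (x.1 - 1, x.2)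

/-- `τ_m(φ_a) ↦ τ_{m-1}(c_1(TX) ∪ φ_a)`, and `τ_0(φ_a) ↦ 0`. -/
noncomputable def lowR (x : X.Ins) (f : X.Ins → ℂ) : ℂ :=
  if x.1 = 0 then 0 else ∑ b, X.R x.2 b * f (x.1 - 1, b)

/-- The function of lists with value `M a b` at `[τ_0(φ_a), τ_0(φ_b)]` and `0` elsewhere. -/
noncomputable def pairing (M : Matrix X.I X.I ℂ) : List X.Ins → ℂ
  | [(0, a), (0, b)] => M a b
  | _ => 0

/-- `br x K i = e_{K-i}(x, x+1, …, x+K-1)`, the coefficient of `T^i` in `∏_{j<K} (T + x + j)`;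
this is the symbol `[x]^k_i` of Eguchi-Hori-Xiong and Getzler with `k = K - 1`. -/
noncomputable def br (x : ℂ) (K i : ℕ) : ℂ :=
  (∏ j ∈ Finset.range K, (Polynomial.X + Polynomial.C (x + (j : ℂ)))).coeff i

/-- The one-slot part of `L_k`, `k = K - 1`:
`τ_m(φ_a) ↦ ∑_{i=0}^{k+1} [μ_a + m + 1/2]^k_i τ_{m+k-i}(c_1(TX)^i ∪ φ_a)`,
with `τ_{-1} = 0`. -/
noncomputable def vir (K : ℕ) (x : X.Ins) (f : X.Ins → ℂ) : ℂ :=
  ∑ i ∈ Finset.range (K + 1), if i < x.1 + K then
    br (X.μ x.2 + x.1 + 1 / 2) K i * ∑ b, (X.R ^ i) x.2 b * f (x.1 + K - 1 - i, b) else 0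

/-- The quadratic part of `L_k`, `k = K - 1`, as a bilinear contraction of `Q`:
`∑_{m+n=k-1-i} (-1)^{m+1} ∑_{a,b} η^{ab} [μ_b - m - 1/2]^k_i Q(τ_m(φ_a), τ_n(c_1(TX)^i ∪ φ_b))`. -/
noncomputable def quad (K : ℕ) (Q : X.Ins → X.Ins → ℂ) : ℂ :=
  ∑ i ∈ Finset.range (K - 1), ∑ mn ∈ Finset.HasAntidiagonal.antidiagonal (K - 2 - i), (-1) ^ (mn.1 + 1) *
    ∑ a, ∑ b, X.η⁻¹ a b * br (X.μ b - mn.1 - 1 / 2) K i *
      ∑ c, (X.R ^ i) b c * Q (mn.1, a) (mn.2, c)

end Cohomology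

/-- A system of descendant Gromov-Witten invariants of `X` with curve classes in `B`
(the monoid of effective classes, each of which has only finitely many decompositions),
subject to the standard properties of these invariants. -/
structure GWTheory (X : Cohomology) (B : Type) [AddCommMonoid B] [DecidableEq B]
    [Finset.HasAntidiagonal B] where
  /-- the degree `c_1(TX) · d` of a curve class -/
  c1 : B →+ ℤ
  /-- the number `∫_X c_1(TX) ∪ c_{D-1}(TX)` -/
  c1cD : ℂ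
  /-- the correlator `⟨τ_{m_1}(φ_{a_1}) ⋯ τ_{m_n}(φ_{a_n})⟩_{g,d}` -/
  corr : ℕ → B → List X.Ins → ℂ
  /-- graded symmetry -/
  swap : ∀ g d l₁ x y l₂, corr g d (l₁ ++ x :: y :: l₂) =
    (-1) ^ (X.par x * X.par y) * corr g d (l₁ ++ y :: x :: l₂)
  /-- there are no unstable invariants in class `0` -/
  unstable : ∀ g l, 2 * g + l.length < 3 → corr g 0 l = 0
  /-- the virtual class is algebraic of dimension `(1-g)(D-3) + c_1·d + n` -/
  dim_p : ∀ g d l, corr g d l ≠ 0 → (l.map fun x => (x.1 + X.p x.2 : ℤ)).sum =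
    (1 - g) * (X.D - 3) + c1 d + l.length
  dim_q : ∀ g d l, corr g d l ≠ 0 → (l.map fun x => (x.1 + X.q x.2 : ℤ)).sum =
    (1 - g) * (X.D - 3) + c1 d + l.length
  /-- string equation -/
  string : ∀ g d l, corr g d ((0, X.one) :: l) = X.derive X.low (corr g d) l +
    if g = 0 ∧ d = 0 then X.pairing X.η l else 0
  /-- dilaton equation, including `⟨τ_1(1)⟩_{1,0} = χ(X)/24` -/
  dilaton : ∀ g d l, corr g d ((1, X.one) :: l) = (2 * g - 2 + l.length) * corr g d l +
    if g = 1 ∧ d = 0 ∧ l = [] then X.χ / 24 else 0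
  /-- divisor equation for `c_1(TX)`, including `⟨τ_0(c_1)⟩_{1,0} = -(1/24) ∫_X c_1 c_{D-1}` -/
  divisor : ∀ g d l, ∑ b, X.R X.one b * corr g d ((0, b) :: l) =
    c1 d * corr g d l + X.derive X.lowR (corr g d) l +
    (if g = 0 ∧ d = 0 then X.pairing (X.R * X.η) l else 0) -
    if g = 1 ∧ d = 0 ∧ l = [] then c1cD / 24 else 0
  /-- topological recursion in genus `0` -/
  trr : ∀ d m a l x y, corr 0 d ((m + 1, a) :: l ++ [x, y]) =
    ∑ dd ∈ Finset.HasAntidiagonal.antidiagonal d, ∑ b, ∑ c, X.η⁻¹ b c *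
      X.splitSum (fun l₁ l₂ => corr 0 dd.1 ((m, a) :: l₁ ++ [(0, b)]) *
        corr 0 dd.2 ((0, c) :: l₂ ++ [x, y])) l

namespace GWTheory

variable {X : Cohomology} {B : Type} [AddCommMonoid B] [DecidableEq B] [Finset.HasAntidiagonal B]
  (G : GWTheory X B)

/-- The second-order terms at `(g, d, l)`:
`⟨x y l⟩_{g-1,d} + ∑ ± ⟨l₁ x⟩_{g₁,d₁} ⟨y l₂⟩_{g₂,d₂}`. -/
noncomputable def second (g : ℕ) (d : B) (l : List X.Ins) (x y : X.Ins) : ℂ :=
  (if g = 0 then 0 else G.corr (g - 1) d (x :: y :: l)) +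
  ∑ gg ∈ Finset.HasAntidiagonal.antidiagonal g, ∑ dd ∈ Finset.HasAntidiagonal.antidiagonal d,
    X.splitSum (fun l₁ l₂ => G.corr gg.1 dd.1 (l₁ ++ [x]) * G.corr gg.2 dd.2 (y :: l₂)) l

/-- `G.virasoro K g d l` is the coefficient of `Z⁻¹ L_k Z`, `k = K - 1 ≥ -1`, at
`ħ^{g-1} Q^d` and the monomial of the list `l` of insertions; the `k`-th Virasoro constraint
`L_k Z = 0` says that all these numbers vanish. -/
noncomputable def virasoro (K g : ℕ) (d : B) (l : List X.Ins) : ℂ :=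
  - X.vir K (1, X.one) (fun y => G.corr g d (y :: l))
  + X.derive (X.vir K) (G.corr g d) l
  + 1 / 2 * X.quad K (G.second g d l)
  + (if g = 0 ∧ d = 0 then X.pairing (X.R ^ K * X.η) l else 0)
  + (if K = 1 ∧ g = 1 ∧ d = 0 ∧ l = [] then X.χ / 16 - X.strμ2 / 4 else 0)

end GWTheory

end Vale.Agent.P269
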