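import Vale.Agent.P269.Defs

/-!
# Integrals of products of cohomology classes
-/

namespace Vale.Agent.P269

/-- The integrals `int [a_1, …, a_n] = ∫_X φ_{a_1} ∪ ⋯ ∪ φ_{a_n}` of products of basis classes
of the cohomology ring of `X`. -/
structure IntData (X : Cohomology) where
  /-- `∫_X φ_{a_1} ∪ ⋯ ∪ φ_{a_n}` -/
  int : List X.I → ℂ
  /-- graded commutativity of the cup product -/
  swap : ∀ l₁ a b l₂, int (l₁ ++ a :: b :: l₂) =
    (-1) ^ ((X.p a + X.q a) * (X.p b + X.q b)) * int (l₁ ++ b :: a :: l₂)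
  /-- unit -/
  one : ∀ l, int (X.one :: l) = int l
  /-- the Poincaré pairing -/
  two : ∀ a b, int [a, b] = X.η a b
  /-- Hodge degrees -/
  deg : ∀ l, int l ≠ 0 → (l.map X.p).sum = X.D ∧ (l.map X.q).sum = X.D
  /-- expansion of a product in the basis -/
  split : ∀ l₁ l₂, int (l₁ ++ l₂) = ∑ b, ∑ c, X.η⁻¹ b c * (int (l₁ ++ [b]) * int (c :: l₂))
  /-- `R` is the cup product with `c_1(TX) = ∑_b R_{one,b} φ_b` -/
  c1 : ∀ l₁ a l₂, ∑ b, X.R a b * int (l₁ ++ b :: l₂) =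
    ∑ b, X.R X.one b * int (b :: (l₁ ++ a :: l₂))

end Vale.Agent.P269
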