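import Vale.Agent.P269.Defs

/-!
# P269: the total descendant potential `Z = exp(∑_g ħ^{g-1} F_g)` and `L_k Z`, coefficient by
coefficient

`F_g` has the coefficient `⟨l⟩_{g,d}` at `Q^d` and the monomial of the list `l` of insertions, and
`X.splitSum` is the coefficient form of the product of two such series.
-/

namespace Vale.Agent.P269.GWTheory

variable {X : Cohomology} {B : Type} [AddCommMonoid B] [DecidableEq B] [Finset.HasAntidiagonal B]
  (G : GWTheory X B)

/-- The coefficient of `ħ^{j-m} Q^d t^l` in the `m`-th power of `∑_g ħ^{g-1} F_g`. -/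
noncomputable def powF : ℕ → ℕ → B → List X.Ins → ℂ
  | 0, j, d, l => if j = 0 ∧ d = 0 ∧ l = [] then 1 else 0
  | m + 1, j, d, l => ∑ gg ∈ Finset.HasAntidiagonal.antidiagonal j,
      ∑ dd ∈ Finset.HasAntidiagonal.antidiagonal d,
        X.splitSum (fun l₁ l₂ => G.corr gg.1 dd.1 l₁ * powF m gg.2 dd.2 l₂) l

/-- The coefficient of `ħ^n Q^d t^l` in `Z = exp(∑_g ħ^{g-1} F_g)`. -/
noncomputable def Z (n : ℤ) (d : B) (l : List X.Ins) : ℂ :=
  ∑ᶠ m : ℕ, if 0 ≤ n + m then G.powF m (n + m).toNat d l / m.factorial else 0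

/-- The coefficient of `ħ^n Q^d t^l` in `L_k Z`, `k = K - 1`. The five terms come from the
dilaton shift, from `t^x ∂_y`, from `ħ ∂_x ∂_y`, from `ħ⁻¹ t^x t^y` and from the scalar of `L_0`. -/
noncomputable def LZ (K : ℕ) (n : ℤ) (d : B) (l : List X.Ins) : ℂ :=
  - X.vir K (1, X.one) (fun y => G.Z n d (y :: l))
  + X.derive (X.vir K) (G.Z n d) l
  + 1 / 2 * X.quad K (fun x y => G.Z (n - 1) d (x :: y :: l))
  + X.splitSum (fun l₁ l₂ => X.pairing (X.R ^ K * X.η) l₁ * G.Z (n + 1) d l₂) l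
  + (if K = 1 then X.χ / 16 - X.strμ2 / 4 else 0) * G.Z n d l

end Vale.Agent.P269.GWTheory
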